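import Vale.Agent.P192.H823.K.K6
import Vale.Agent.P192.H794.F.F15
import Vale.Agent.P192.H794.F.G0
import Vale.Agent.P192.H479.U2

/-!
# P192: piecewise isometries of the plane times counters, every ordered field, uniform form
-/

namespace Vale.Agent.P192.H823.K

/-- two lines and counters -/
theorem two_line (𝕜 : Type) [Field 𝕜] [LinearOrder 𝕜] [IsStrictOrderedRing 𝕜] : TwoLine 𝕜 :=
  fun G _ _ hG S hS k W T ρ hρ => H794.F.main_two_line H794.F.nu G hG S hS k W T ρ hρ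

/-- piecewise isometries of the line -/
theorem iso_one (𝕜 : Type) [Field 𝕜] [LinearOrder 𝕜] [IsStrictOrderedRing 𝕜] : IsoOne 𝕜 :=
  fun G _ _ hG S hS L _ hL U _ hU k W T ρ hρ =>
    H794.F.iso_one H794.F.nu G hG S hS L hL U hU k W T ρ hρ

/-- **Piecewise isometries of the plane and counters, every ordered field.** -/
theorem iso_two_field (𝕜 : Type) [Field 𝕜] [LinearOrder 𝕜] [IsStrictOrderedRing 𝕜] :
    H479.U.IsoTwo 𝕜 :=
  fun G _ _ hG S hS k W T ρ hρ => iso_two (two_line 𝕜) (iso_one 𝕜) G hG S hS k W T ρ hρ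

/-- **Piecewise isometries of the plane and counters: the uniform theorem.** -/
theorem unif_iso_two (G : Type) [Group G] [Group.IsFinitelyPresented G]
    (hG : ∀ x : G, IsOfFinOrder x) (S : Set G) (hS : Subgroup.closure S = ⊤)
    (k m : ℕ) (Z₀ : Set (Fin k → ℤ)) (hZ₀ : Z₀.Finite) :
    ∃ N : Subgroup G, N.Normal ∧ N.FiniteIndex ∧
      ∀ D : H479.U.SysP2 G S k m Z₀, ∀ g ∈ N, D.ρ g = 1 :=
  H479.U.unif_iso_two (fun 𝕜 _ _ _ => iso_two_field 𝕜) G hG S hS k m Z₀ hZ₀

end Vale.Agent.P192.H823.K
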