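import Mathlib

/-!
# P192: isometric rectangle exchanges modulo lines over an ordered field: germs and frames

Points of the plane are functions `Bool → 𝕜`. A frame is `(a, e, p)`: `p` a point, `e b` the
direction of the germ along the axis `b`, `a` the axis of the first germ.
-/

set_option linter.unusedSectionVars false

namespace Vale.Agent.P192.H823.K

open Filter

variable {𝕜 : Type} [Field 𝕜] [LinearOrder 𝕜] [IsStrictOrderedRing 𝕜]

/-- the filter of the small positive elements -/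
def gt0 (𝕜 : Type) [Zero 𝕜] [LinearOrder 𝕜] : Filter 𝕜 :=
  ⨅ D : {D : 𝕜 // 0 < D}, 𝓟 (Set.Ioo 0 D.1)

theorem gt0_basis (𝕜 : Type) [Field 𝕜] [LinearOrder 𝕜] [IsStrictOrderedRing 𝕜] :
    (gt0 𝕜).HasBasis (fun _ : {D : 𝕜 // 0 < D} => True) (fun D => Set.Ioo 0 D.1) := by
  have : Nonempty {D : 𝕜 // 0 < D} := ⟨⟨1, one_pos⟩⟩
  refine hasBasis_iInf_principal ?_
  intro D D'
  refine ⟨⟨min D.1 D'.1, lt_min D.2 D'.2⟩, ?_, ?_⟩
  · exact fun x hx => ⟨hx.1, lt_of_lt_of_le hx.2 (min_le_left _ _)⟩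
  · exact fun x hx => ⟨hx.1, lt_of_lt_of_le hx.2 (min_le_right _ _)⟩

theorem ev_gt0 {P : 𝕜 → Prop} : (∀ᶠ t in gt0 𝕜, P t) ↔ ∃ D : 𝕜, 0 < D ∧ ∀ t, 0 < t → t < D → P t := by
  rw [(gt0_basis 𝕜).eventually_iff]
  constructor
  · rintro ⟨D, -, h⟩
    exact ⟨D.1, D.2, fun t h1 h2 => h ⟨h1, h2⟩⟩
  · rintro ⟨D, hD, h⟩
    exact ⟨⟨D, hD⟩, trivial, fun t ht => h t ht.1 ht.2⟩

instance gt0_neBot : (gt0 𝕜).NeBot := by
  rw [(gt0_basis 𝕜).neBot_iff]
  rintro D -
  exact ⟨D.1 / 2, half_pos D.2, half_lt_self D.2⟩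

/-- the sign of a direction -/
def sg (e : Bool) : 𝕜 := if e then -1 else 1

theorem sg_xor (x y : Bool) : (sg (xor x y) : 𝕜) = sg x * sg y := by
  cases x <;> cases y <;> simp [sg]

theorem sg_mul_self (x : Bool) : (sg x * sg x : 𝕜) = 1 := by
  cases x <;> simp [sg]

theorem sg_inj {x y : Bool} (h : (sg x : 𝕜) = sg y) : x = y := by
  cases x <;> cases y <;> simp only [sg, Bool.false_eq_true, if_false, if_true] at h ⊢ <;>
    exfalso <;> linarith

/-- `x` is below the germ at `p` with direction `e` -/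
def lt (x : 𝕜) (e : Bool) (p : 𝕜) : Prop := if e then x < p else x ≤ p

theorem ev_germ (p : 𝕜) (e : Bool) (x : 𝕜) :
    ∀ᶠ t in gt0 𝕜, p + sg e * t ≠ x ∧ (x < p + sg e * t ↔ lt x e p) := by
  rw [ev_gt0]
  rcases lt_trichotomy x p with h | h | h
  · refine ⟨p - x, by linarith, fun t ht0 ht => ?_⟩
    have h2 : x < p + sg e * t := by
      cases e
      · simp only [sg, Bool.false_eq_true, if_false]; linarith
      · simp only [sg, if_true]; linarith
    refine ⟨h2.ne', iff_of_true h2 ?_⟩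
    cases e
    · simp only [lt, Bool.false_eq_true, if_false]; exact h.le
    · simp only [lt, if_true]; exact h
  · subst h
    refine ⟨1, one_pos, fun t ht0 _ => ?_⟩
    cases e
    · simp only [lt, sg, Bool.false_eq_true, if_false]
      refine ⟨fun h => by linarith, iff_of_true (by linarith) le_rfl⟩
    · simp only [lt, sg, if_true]
      refine ⟨fun h => by linarith, iff_of_false (by linarith) (lt_irrefl _)⟩
  · refine ⟨x - p, by linarith, fun t ht0 ht => ?_⟩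
    have h2 : p + sg e * t < x := by
      cases e
      · simp only [sg, Bool.false_eq_true, if_false]; linarith
      · simp only [sg, if_true]; linarith
    refine ⟨h2.ne, iff_of_false (not_lt.2 h2.le) ?_⟩
    cases e
    · simp only [lt, Bool.false_eq_true, if_false]; exact not_le.2 h
    · simp only [lt, if_true]; exact not_lt.2 h.le

/-- frames -/
abbrev Fr (𝕜 : Type) : Type := Bool × (Bool → Bool) × (Bool → 𝕜)

/-- the point with distances `d` from the frame -/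
def pt (F : Fr 𝕜) (d : 𝕜 × 𝕜) : Bool → 𝕜 :=
  fun b => F.2.2 b + sg (F.2.1 b) * (if b = F.1 then d.1 else d.2)

/-- small positive distances -/
abbrev sm (𝕜 : Type) [Zero 𝕜] [LinearOrder 𝕜] : Filter (𝕜 × 𝕜) := gt0 𝕜 ×ˢ gt0 𝕜

theorem ev_pt (F : Fr 𝕜) {B : Set 𝕜} (hB : B.Finite) :
    ∀ᶠ d in sm 𝕜, ∀ b, pt F d b ∉ B ∧ ∀ x ∈ B, (x < pt F d b ↔ lt x (F.2.1 b) (F.2.2 b)) := by
  rw [eventually_all]
  intro b
  have h1 : ∀ᶠ t in gt0 𝕜, ∀ x ∈ B, F.2.2 b + sg (F.2.1 b) * t ≠ x ∧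
      (x < F.2.2 b + sg (F.2.1 b) * t ↔ lt x (F.2.1 b) (F.2.2 b)) :=
    (eventually_all_finite hB).2 fun x _ => ev_germ _ _ _
  by_cases hb : b = F.1
  · filter_upwards [tendsto_fst.eventually h1] with d hd
    unfold pt
    rw [if_pos hb]
    exact ⟨fun h => (hd _ h).1 rfl, fun x hx => (hd x hx).2⟩
  · filter_upwards [tendsto_snd.eventually h1] with d hd
    unfold pt
    rw [if_neg hb]
    exact ⟨fun h => (hd _ h).1 rfl, fun x hx => (hd x hx).2⟩

/-- the open rectangle -/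
def Dom (l : Bool → 𝕜) (z : Bool → 𝕜) : Prop := ∀ b, 0 < z b ∧ z b < l b

/-- the frames of the rectangle -/
def Vf (l : Bool → 𝕜) (F : Fr 𝕜) : Prop :=
  ∀ b, lt 0 (F.2.1 b) (F.2.2 b) ∧ ¬ lt (l b) (F.2.1 b) (F.2.2 b)

theorem ev_dom_iff (l : Bool → 𝕜) (F : Fr 𝕜) : ∀ᶠ d in sm 𝕜, (Dom l (pt F d) ↔ Vf l F) := by
  filter_upwards [ev_pt F (B := {0, l false, l true}) (by simp)] with d hd
  refine forall_congr' fun b => ?_
  have h1 := (hd b).2 0 (by simp)
  have h2 : l b ∈ ({0, l false, l true} : Set 𝕜) := by cases b <;> simp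
  have h3 := (hd b).2 (l b) h2
  rw [h1, ← h3, not_lt, and_congr_right_iff]
  intro _
  refine ⟨le_of_lt, fun h => lt_of_le_of_ne h ?_⟩
  intro h4
  exact (hd b).1 (h4 ▸ h2)

theorem ev_dom {l : Bool → 𝕜} {F : Fr 𝕜} (hF : Vf l F) : ∀ᶠ d in sm 𝕜, Dom l (pt F d) := by
  filter_upwards [ev_dom_iff l F] with d hd
  exact hd.2 hF

theorem vf_of_ev {l : Bool → 𝕜} {F : Fr 𝕜} (h : ∀ᶠ d in sm 𝕜, Dom l (pt F d)) : Vf l F := by
  obtain ⟨d, h1, h2⟩ := (h.and (ev_dom_iff l F)).exists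
  exact h2.1 h1

theorem ev_D {P : 𝕜 × 𝕜 → Prop} (h : ∀ᶠ d in sm 𝕜, P d) :
    ∃ D : 𝕜, 0 < D ∧ ∀ s t, 0 < s → s < D → 0 < t → t < D → P (s, t) := by
  obtain ⟨p, hp, q, hq, h1⟩ := eventually_prod_iff.1 h
  obtain ⟨u, hu, hu'⟩ := ev_gt0.1 hp
  obtain ⟨v, hv, hv'⟩ := ev_gt0.1 hq
  refine ⟨min u v, lt_min hu hv, fun s t hs hs' ht ht' => h1 ?_ ?_⟩
  · exact hu' s hs (lt_of_lt_of_le hs' (min_le_left _ _))
  · exact hv' t ht (lt_of_lt_of_le ht' (min_le_right _ _))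

theorem pt_inj {F F' : Fr 𝕜} (h : ∀ᶠ d in sm 𝕜, pt F d = pt F' d) : F = F' := by
  obtain ⟨D, hD, h1⟩ := ev_D h
  have h2 : ∀ s t, 0 < s → s < D → 0 < t → t < D → ∀ b,
      F.2.2 b + sg (F.2.1 b) * (if b = F.1 then s else t) =
      F'.2.2 b + sg (F'.2.1 b) * (if b = F'.1 then s else t) :=
    fun s t hs hs' ht ht' b => congrFun (h1 s t hs hs' ht ht') b
  have hsg : ∀ e, (sg e : 𝕜) = 1 ∨ (sg e : 𝕜) = -1 := by
    intro e; cases e <;> simp [sg]
  have ha : F.1 = F'.1 := by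
    by_contra hne
    have h3 := h2 (D / 2) (D / 2) (by linarith) (by linarith) (by linarith) (by linarith) F.1
    have h4 := h2 (D / 4) (D / 2) (by linarith) (by linarith) (by linarith) (by linarith) F.1
    rw [if_pos rfl, if_neg hne] at h3 h4
    rcases hsg (F.2.1 F.1) with h5 | h5 <;> rw [h5] at h3 h4 <;> linarith
  have hb : ∀ b, F.2.2 b = F'.2.2 b ∧ F.2.1 b = F'.2.1 b := by
    intro b
    have h3 := h2 (D / 2) (D / 2) (by linarith) (by linarith) (by linarith) (by linarith) b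
    have h4 := h2 (D / 4) (D / 4) (by linarith) (by linarith) (by linarith) (by linarith) b
    rw [ite_self, ite_self] at h3 h4
    have h5 : (sg (F.2.1 b) - sg (F'.2.1 b)) * D = 0 := by linarith
    have h6 : (sg (F.2.1 b) : 𝕜) = sg (F'.2.1 b) := by
      rcases mul_eq_zero.1 h5 with h7 | h7
      · linarith
      · exact absurd h7 hD.ne'
    refine ⟨?_, sg_inj h6⟩
    rw [h6] at h3
    linarith
  obtain ⟨a, e, p⟩ := F
  obtain ⟨a', e', p'⟩ := F'
  have ha : a = a' := ha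
  have he : e = e' := funext fun b => (hb b).2
  have hp : p = p' := funext fun b => (hb b).1
  rw [ha, he, hp]

/-- isometries of the plane which preserve the directions of the axes: exchange of the axes,
reflections, translation -/
structure Fm (𝕜 : Type) where
  σ : Bool
  ε : Bool → Bool
  s : Bool → 𝕜

namespace Fm

/-- the value at a point -/
def ap (φ : Fm 𝕜) (z : Bool → 𝕜) : Bool → 𝕜 :=
  fun b => sg (φ.ε b) * z (xor b φ.σ) + φ.s b

/-- the value at a frame -/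
def fr (φ : Fm 𝕜) (F : Fr 𝕜) : Fr 𝕜 :=
  (xor F.1 φ.σ, fun b => xor (φ.ε b) (F.2.1 (xor b φ.σ)),
    fun b => sg (φ.ε b) * F.2.2 (xor b φ.σ) + φ.s b)

theorem ap_pt (φ : Fm 𝕜) (F : Fr 𝕜) (d : 𝕜 × 𝕜) : φ.ap (pt F d) = pt (φ.fr F) d := by
  funext b
  have h1 : (xor b φ.σ = F.1) ↔ (b = xor F.1 φ.σ) := by
    cases b <;> cases φ.σ <;> cases F.1 <;> simp
  change sg (φ.ε b) * (F.2.2 (xor b φ.σ) + sg (F.2.1 (xor b φ.σ)) *
    (if xor b φ.σ = F.1 then d.1 else d.2)) + φ.s b =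
    (sg (φ.ε b) * F.2.2 (xor b φ.σ) + φ.s b) + sg (xor (φ.ε b) (F.2.1 (xor b φ.σ))) *
    (if b = xor F.1 φ.σ then d.1 else d.2)
  rw [sg_xor]
  by_cases h : b = xor F.1 φ.σ
  · rw [if_pos h, if_pos (h1.2 h)]
    ring
  · rw [if_neg h, if_neg (fun h2 => h (h1.1 h2))]
    ring

end Fm

end Vale.Agent.P192.H823.K
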