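import Vale.Agent.P192.H823.K.K2
import Vale.Agent.P192.H237.RegW

/-!
# P192: cells of the plane and the isometries which preserve the pair of the axes, ordered fields
-/

set_option linter.unusedSectionVars false

namespace Vale.Agent.P192.H823.K

variable {𝕜 : Type} [Field 𝕜] [LinearOrder 𝕜] [IsStrictOrderedRing 𝕜]

open Filter
open Vale.Agent.P192.RL5 Vale.Agent.P192.H237

/-- `x` and `x'` have the same position with respect to the points of `B` -/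
def CellK (B : Finset 𝕜) (x x' : 𝕜) : Prop := ∀ b ∈ B, (b < x ↔ b < x') ∧ (x < b ↔ x' < b)

theorem cell_refl (B : Finset 𝕜) (x : 𝕜) : CellK B x x := fun _ _ => ⟨Iff.rfl, Iff.rfl⟩

theorem cell_eq_of_mem {B : Finset 𝕜} {x x' : 𝕜} (h : CellK B x x') (hx : x ∈ B) : x' = x := by
  obtain ⟨h1, h2⟩ := h x hx
  rcases lt_trichotomy x' x with h3 | h3 | h3
  · exact absurd (h2.2 h3) (lt_irrefl _)
  · exact h3
  · exact absurd (h1.2 h3) (lt_irrefl _)

/-- pull-back of cells under `x ↦ ± x + s` -/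
theorem cell_pull {B : Finset 𝕜} {e : Bool} {s : 𝕜} {x x' : 𝕜}
    (h : ∀ b ∈ B, (sg e * (b - s) < x ↔ sg e * (b - s) < x') ∧
      (x < sg e * (b - s) ↔ x' < sg e * (b - s))) :
    CellK B (sg e * x + s) (sg e * x' + s) := by
  intro b hb
  obtain ⟨h1, h2⟩ := h b hb
  cases e
  · simp only [sg, Bool.false_eq_true, if_false, one_mul] at h1 h2 ⊢
    refine ⟨?_, ?_⟩
    · constructor
      · intro h3
        have := h1.1 (by linarith)
        linarith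
      · intro h3
        have := h1.2 (by linarith)
        linarith
    · constructor
      · intro h3
        have := h2.1 (by linarith)
        linarith
      · intro h3
        have := h2.2 (by linarith)
        linarith
  · simp only [sg, if_true] at h1 h2 ⊢
    refine ⟨?_, ?_⟩
    · constructor
      · intro h3
        have := h2.1 (by linarith)
        linarith
      · intro h3
        have := h2.2 (by linarith)
        linarith
    · constructor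
      · intro h3
        have := h1.1 (by linarith)
        linarith
      · intro h3
        have := h1.2 (by linarith)
        linarith

theorem xor_xor (b σ : Bool) : xor (xor b σ) σ = b := by cases b <;> cases σ <;> rfl

namespace Fm

/-- composition -/
noncomputable def mul (φ ψ : Fm 𝕜) : Fm 𝕜 :=
  ⟨xor φ.σ ψ.σ, fun b => xor (φ.ε b) (ψ.ε (xor b φ.σ)),
    fun b => sg (φ.ε b) * ψ.s (xor b φ.σ) + φ.s b⟩

theorem mul_ap (φ ψ : Fm 𝕜) (z : Bool → 𝕜) : (φ.mul ψ).ap z = φ.ap (ψ.ap z) := by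
  funext b
  change sg (xor (φ.ε b) (ψ.ε (xor b φ.σ))) * z (xor b (xor φ.σ ψ.σ)) +
    (sg (φ.ε b) * ψ.s (xor b φ.σ) + φ.s b) =
    sg (φ.ε b) * (sg (ψ.ε (xor b φ.σ)) * z (xor (xor b φ.σ) ψ.σ) + ψ.s (xor b φ.σ)) + φ.s b
  have h : xor b (xor φ.σ ψ.σ) = xor (xor b φ.σ) ψ.σ := by
    cases b <;> cases φ.σ <;> cases ψ.σ <;> rfl
  rw [h, sg_xor]
  ring

/-- the inverse -/
noncomputable def inv (φ : Fm 𝕜) : Fm 𝕜 :=
  ⟨φ.σ, fun b => φ.ε (xor b φ.σ), fun b => -(sg (φ.ε (xor b φ.σ)) * φ.s (xor b φ.σ))⟩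

theorem inv_ap (φ : Fm 𝕜) (z : Bool → 𝕜) : φ.inv.ap (φ.ap z) = z := by
  funext b
  change sg (φ.ε (xor b φ.σ)) * (sg (φ.ε (xor b φ.σ)) * z (xor (xor b φ.σ) φ.σ) +
    φ.s (xor b φ.σ)) + -(sg (φ.ε (xor b φ.σ)) * φ.s (xor b φ.σ)) = z b
  rw [xor_xor, mul_add, ← mul_assoc, sg_mul_self]
  ring

theorem ap_inv (φ : Fm 𝕜) (z : Bool → 𝕜) : φ.ap (φ.inv.ap z) = z := by
  funext b
  change sg (φ.ε b) * (sg (φ.ε (xor (xor b φ.σ) φ.σ)) * z (xor (xor b φ.σ) φ.σ) +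
    -(sg (φ.ε (xor (xor b φ.σ) φ.σ)) * φ.s (xor (xor b φ.σ) φ.σ))) + φ.s b = z b
  rw [xor_xor, mul_add, ← mul_assoc, sg_mul_self, mul_neg, ← mul_assoc, sg_mul_self]
  ring

/-- the permutation of the plane -/
noncomputable def pm (φ : Fm 𝕜) : Equiv.Perm (Bool → 𝕜) := ⟨φ.ap, φ.inv.ap, φ.inv_ap, φ.ap_inv⟩

theorem pm_apply (φ : Fm 𝕜) (z : Bool → 𝕜) : φ.pm z = φ.ap z := rfl

end Fm

/-- the group of the isometries which preserve the pair of the axes -/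
noncomputable def Iso8 (𝕜 : Type) [Field 𝕜] [LinearOrder 𝕜] [IsStrictOrderedRing 𝕜] :
    Subgroup (Equiv.Perm (Bool → 𝕜)) where
  carrier := Set.range (Fm.pm (𝕜 := 𝕜))
  mul_mem' := by
    rintro _ _ ⟨φ, rfl⟩ ⟨ψ, rfl⟩
    exact ⟨φ.mul ψ, Equiv.ext fun z => φ.mul_ap ψ z⟩
  one_mem' := by
    refine ⟨⟨false, fun _ => false, fun _ => 0⟩, Equiv.ext fun z => ?_⟩
    funext b
    change sg false * z (xor b false) + 0 = z b
    simp [sg]
  inv_mem' := by
    rintro _ ⟨φ, rfl⟩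
    exact ⟨φ.inv, Equiv.ext fun z => rfl⟩

/-- the cells of the plane -/
noncomputable def regP (𝕜 : Type) [Field 𝕜] [LinearOrder 𝕜] [IsStrictOrderedRing 𝕜] :
    Reg (Iso8 𝕜).subtype Set.univ where
  R := {r | ∃ B : Finset 𝕜, r = fun z z' => ∀ b, CellK B (z b) (z' b)}
  ne := ⟨_, ∅, rfl⟩
  refl := by
    rintro _ ⟨B, rfl⟩ x _ b
    exact cell_refl B _
  inf := by
    classical
    rintro _ ⟨B, rfl⟩ _ ⟨B', rfl⟩
    refine ⟨_, ⟨B ∪ B', rfl⟩, fun x _ y _ h => ?_⟩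
    exact ⟨fun b t ht => h b t (Finset.mem_union_left _ ht),
      fun b t ht => h b t (Finset.mem_union_right _ ht)⟩
  pull := by
    classical
    rintro _ ⟨B, rfl⟩ ⟨_, φ, rfl⟩
    refine ⟨_, ⟨(Finset.univ : Finset Bool).biUnion
      (fun b => B.image fun x => sg (φ.ε b) * (x - φ.s b)), rfl⟩, fun z _ z' _ h _ =>
      ⟨trivial, fun b => ?_⟩⟩
    change CellK B (sg (φ.ε b) * z (xor b φ.σ) + φ.s b) (sg (φ.ε b) * z' (xor b φ.σ) + φ.s b)
    refine cell_pull fun x hx => h (xor b φ.σ) _ ?_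
    exact Finset.mem_biUnion.2 ⟨b, Finset.mem_univ _, Finset.mem_image_of_mem _ hx⟩

/-- cells of the plane times colours -/
noncomputable abbrev regPW (𝕜 : Type) [Field 𝕜] [LinearOrder 𝕜] [IsStrictOrderedRing 𝕜] {k : ℕ} {W : Fin k → Type} (T : ∀ i, Equiv.Perm (W i)) :
    Reg (prodAct (Iso8 𝕜).subtype (actW T))
      {v : (Bool → 𝕜) × (∀ i, W i) | v.1 ∈ Set.univ ∧ v.2 ∈ Set.univ} :=
  (regP 𝕜).prod (regW T)

/-- `Pw` for the cells, explicit -/
theorem pw_iff {k : ℕ} {W : Fin k → Type} {T : ∀ i, Equiv.Perm (W i)}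
    {f : (Bool → 𝕜) × (∀ i, W i) → (Bool → 𝕜) × (∀ i, W i)} (h : (regPW 𝕜 T).Pw f) :
    ∃ (m : ℕ) (c : ∀ i, W i → Fin m) (B : Finset 𝕜) (K : Set (Fm 𝕜 × (Fin k → ℤ))), K.Finite ∧
      ∀ v : (Bool → 𝕜) × (∀ i, W i), ∃ q ∈ K, ∀ v' : (Bool → 𝕜) × (∀ i, W i),
        (∀ b, CellK B (v.1 b) (v'.1 b)) → (∀ i, c i (v.2 i) = c i (v'.2 i)) →
        f v' = (q.1.ap v'.1, fun i => (T i ^ q.2 i) (v'.2 i)) := by
  classical
  obtain ⟨_, ⟨_, ⟨B, rfl⟩, _, ⟨m, c, rfl⟩, rfl⟩, Q, hQ, h1⟩ := h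
  have hch : ∀ p : Iso8 𝕜, ∃ φ : Fm 𝕜, φ.pm = p := fun p => p.2
  choose cf hcf using hch
  refine ⟨m, c, B, (fun q : Iso8 𝕜 × (Fin k → Multiplicative ℤ) =>
    (cf q.1, fun i => (q.2 i).toAdd)) '' Q, hQ.image _, fun v => ?_⟩
  obtain ⟨q, hq, h2⟩ := h1 v ⟨trivial, trivial⟩
  refine ⟨_, ⟨q, hq, rfl⟩, fun v' h3 h4 => ?_⟩
  obtain ⟨h5, -⟩ := h2 v' ⟨trivial, trivial⟩ ⟨h3, h4⟩
  rw [h5]
  refine Prod.ext ?_ rfl
  change (q.1 : Equiv.Perm (Bool → 𝕜)) v'.1 = (cf q.1).ap v'.1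
  rw [← hcf q.1]
  rfl

/-- **The action of all elements, the subgroup which is trivial off lines.** -/
theorem two_data (hL : TwoLine 𝕜) {G : Type} [Group G] [Group.IsFinitelyPresented G]
    (hG : ∀ x : G, IsOfFinOrder x) (S : Set G) (hS : Subgroup.closure S = ⊤)
    {k : ℕ} {W : Fin k → Type} (T : ∀ i, Equiv.Perm (W i))
    (ρ : G →* Equiv.Perm ((Bool → 𝕜) × (∀ i, W i))) (h : ∀ s ∈ S, (regPW 𝕜 T).Pw (ρ s)) :
    (∀ g, (regPW 𝕜 T).Pw (ρ g)) ∧ ∃ N : Subgroup G, N.Normal ∧ N.FiniteIndex ∧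
      ∀ g ∈ N, ∃ B : Finset 𝕜, ∀ v : (Bool → 𝕜) × (∀ i, W i), (∀ b, v.1 b ∉ B) → ρ g v = v := by
  have hall : ∀ g, (regPW 𝕜 T).Pw (ρ g) :=
    (Reg.Pw.all (F := regPW 𝕜 T) hS ρ (fun s _ x => ⟨fun _ => ⟨trivial, trivial⟩,
      fun _ => ⟨trivial, trivial⟩⟩) h).2
  refine ⟨hall, ?_⟩
  choose m c B K hK hpt using fun g => pw_iff (hall g)
  let SS : SysC 𝕜 G k W T :=
    { ρ := fun g v => ((ρ g (v.2, v.1)).2, (ρ g (v.2, v.1)).1)
      B := fun g => (B g : Set 𝕜)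
      fB := fun g => (B g).finite_toSet
      m := m
      c := c
      ire := by
        intro g w z hz
        obtain ⟨q, -, h1⟩ := hpt g (z, w)
        refine ⟨q.1, q.2, fun w' z' hw hz' hzz => ?_⟩
        have h2 := h1 (z', w') (fun b x hx => ?_) hw
        · rw [h2]
        · refine ⟨hzz b x (Finset.mem_coe.2 hx), ?_⟩
          have h3 : z b ≠ x := fun h4 => hz b (h4 ▸ Finset.mem_coe.2 hx)
          have h4 : z' b ≠ x := fun h4 => hz' b (h4 ▸ Finset.mem_coe.2 hx)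
          have h5 := hzz b x (Finset.mem_coe.2 hx)
          constructor
          · intro h6
            rcases lt_or_gt_of_ne h4 with h7 | h7
            · exact h7
            · exact absurd (h5.2 h7) (not_lt.2 h6.le)
          · intro h6
            rcases lt_or_gt_of_ne h3 with h7 | h7
            · exact h7
            · exact absurd (h5.1 h7) (not_lt.2 h6.le)
      one := by
        refine ⟨∅, Set.finite_empty, fun w z _ => ?_⟩
        rw [map_one]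
        rfl
      mul := by
        intro g g'
        refine ⟨∅, Set.finite_empty, fun w z _ => ?_⟩
        rw [map_mul]
        rfl }
  obtain ⟨N, h1, h2, h3⟩ := SS.flip hL hG
  refine ⟨N, h1, h2, fun g hg => ⟨B g, fun v hv => ?_⟩⟩
  have h4 := Prod.ext_iff.1 (h3 g hg v.2 v.1 (fun b hb => hv b (Finset.mem_coe.1 hb)))
  exact Prod.ext h4.2 h4.1

end Vale.Agent.P192.H823.K
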